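import Mathlib

namespace Vale.Agent.Lib.P249.helper42

open Finset
open scoped Pointwise

/-- Discrete Prekopa-Leindler inequality on the integers, for two positive functions on finite
sets `sF`, `sG` with a common maximum `m` (induction on the sizes of the supports). -/
theorem discrete_pl_max_aux : ∀ (n : ℕ) (F G H : ℤ → ℝ) (sF sG : Finset ℤ) (m : ℝ),
    sF.card + sG.card = n → 0 < m →
    (∀ x ∈ sF, 0 < F x ∧ F x ≤ m) → (∀ y ∈ sG, 0 < G y ∧ G y ≤ m) →
    (∃ x ∈ sF, F x = m) → (∃ y ∈ sG, G y = m) →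
    (∀ x ∈ sF, ∀ y ∈ sG, min (F x) (G y) ≤ H (x + y)) →
    ∑ x ∈ sF, F x + ∑ y ∈ sG, G y - m ≤ ∑ z ∈ sF + sG, H z := by
  intro n
  induction n using Nat.strong_induction_on with
  | _ n ih =>
  intro F G H sF sG m hn hm hF hG hFm hGm hH
  obtain ⟨xm, hxm, hFxm⟩ := hFm
  obtain ⟨ym, hym, hGym⟩ := hGm
  have hsF : sF.Nonempty := ⟨xm, hxm⟩
  have hsG : sG.Nonempty := ⟨ym, hym⟩
  -- the least value
  set V : Finset ℝ := sF.image F ∪ sG.image G with hV
  have hVne : V.Nonempty := ⟨F xm, mem_union_left _ (mem_image_of_mem F hxm)⟩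
  set t : ℝ := V.min' hVne with ht
  have htF : ∀ x ∈ sF, t ≤ F x := fun x hx =>
    Finset.min'_le V _ (mem_union_left _ (mem_image_of_mem F hx))
  have htG : ∀ y ∈ sG, t ≤ G y := fun y hy =>
    Finset.min'_le V _ (mem_union_right _ (mem_image_of_mem G hy))
  have htmem : t ∈ V := Finset.min'_mem V hVne
  have htm : t ≤ m := by
    have := htF xm hxm
    rw [hFxm] at this
    exact this
  have htpos : 0 < t := by
    rcases mem_union.1 htmem with h | h
    · obtain ⟨x, hx, hxt⟩ := mem_image.1 h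
      rw [← hxt]; exact (hF x hx).1
    · obtain ⟨y, hy, hyt⟩ := mem_image.1 h
      rw [← hyt]; exact (hG y hy).1
  have hHt : ∀ z ∈ sF + sG, t ≤ H z := by
    intro z hz
    obtain ⟨x, hx, y, hy, rfl⟩ := Finset.mem_add.1 hz
    exact le_trans (le_min (htF x hx) (htG y hy)) (hH x hx y hy)
  have hCD : sF.card + sG.card - 1 ≤ (sF + sG).card :=
    cauchy_davenport_add_of_linearOrder_isCancelAdd hsF hsG
  have hCD' : ((sF.card : ℝ) + sG.card - 1) ≤ ((sF + sG).card : ℝ) := by
    have h1 : 1 ≤ sF.card + sG.card := by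
      have := hsF.card_pos; omega
    have h2 : ((sF.card + sG.card - 1 : ℕ) : ℝ) ≤ ((sF + sG).card : ℝ) := by exact_mod_cast hCD
    rw [Nat.cast_sub h1] at h2
    push_cast at h2
    linarith
  rcases eq_or_lt_of_le htm with htm' | htm'
  · -- all values equal m
    have hFc : ∀ x ∈ sF, F x = m := fun x hx => le_antisymm (hF x hx).2 (htm' ▸ htF x hx)
    have hGc : ∀ y ∈ sG, G y = m := fun y hy => le_antisymm (hG y hy).2 (htm' ▸ htG y hy)
    have h1 : ∑ x ∈ sF, F x = sF.card * m := by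
      rw [Finset.sum_congr rfl hFc]; simp
    have h2 : ∑ y ∈ sG, G y = sG.card * m := by
      rw [Finset.sum_congr rfl hGc]; simp
    have h3 : ((sF + sG).card : ℝ) * m ≤ ∑ z ∈ sF + sG, H z := by
      have : ∑ _z ∈ sF + sG, m ≤ ∑ z ∈ sF + sG, H z :=
        Finset.sum_le_sum fun z hz => htm' ▸ hHt z hz
      simpa using this
    rw [h1, h2]
    nlinarith
  · -- strip the bottom layer
    set sF' : Finset ℤ := sF.filter fun x => t < F x with hsF'
    set sG' : Finset ℤ := sG.filter fun y => t < G y with hsG'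
    have hsubF : sF' ⊆ sF := Finset.filter_subset _ _
    have hsubG : sG' ⊆ sG := Finset.filter_subset _ _
    have hlt : sF'.card + sG'.card < n := by
      rw [← hn]
      rcases mem_union.1 htmem with h | h
      · obtain ⟨x, hx, hxt⟩ := mem_image.1 h
        have : sF'.card < sF.card := by
          apply Finset.card_lt_card
          refine ⟨hsubF, fun hss => ?_⟩
          have := hss hx
          rw [hsF', Finset.mem_filter] at this
          exact absurd this.2 (by rw [hxt]; exact lt_irrefl _)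
        have := Finset.card_le_card hsubG
        omega
      · obtain ⟨y, hy, hyt⟩ := mem_image.1 h
        have : sG'.card < sG.card := by
          apply Finset.card_lt_card
          refine ⟨hsubG, fun hss => ?_⟩
          have := hss hy
          rw [hsG', Finset.mem_filter] at this
          exact absurd this.2 (by rw [hyt]; exact lt_irrefl _)
        have := Finset.card_le_card hsubF
        omega
    have hrec := ih (sF'.card + sG'.card) hlt (fun x => F x - t) (fun y => G y - t)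
      (fun z => H z - t) sF' sG' (m - t) rfl (by linarith)
      (fun x hx => by
        rw [hsF', Finset.mem_filter] at hx
        exact ⟨by linarith [hx.2], by linarith [(hF x hx.1).2]⟩)
      (fun y hy => by
        rw [hsG', Finset.mem_filter] at hy
        exact ⟨by linarith [hy.2], by linarith [(hG y hy.1).2]⟩)
      ⟨xm, by rw [hsF', Finset.mem_filter]; exact ⟨hxm, by rw [hFxm]; exact htm'⟩, by rw [hFxm]⟩
      ⟨ym, by rw [hsG', Finset.mem_filter]; exact ⟨hym, by rw [hGym]; exact htm'⟩, by rw [hGym]⟩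
      (fun x hx y hy => by
        have := hH x (hsubF hx) y (hsubG hy)
        rw [min_sub_sub_right]
        linarith)
    -- sums over the stripped sets
    have hFsum : ∑ x ∈ sF', (F x - t) = ∑ x ∈ sF, F x - sF.card * t := by
      have h1 : ∑ x ∈ sF', (F x - t) = ∑ x ∈ sF, (F x - t) := by
        apply Finset.sum_subset hsubF
        intro x hx hx'
        have : ¬ t < F x := fun h => hx' (by rw [hsF', Finset.mem_filter]; exact ⟨hx, h⟩)
        linarith [htF x hx]
      rw [h1, Finset.sum_sub_distrib]; simp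
    have hGsum : ∑ y ∈ sG', (G y - t) = ∑ y ∈ sG, G y - sG.card * t := by
      have h1 : ∑ y ∈ sG', (G y - t) = ∑ y ∈ sG, (G y - t) := by
        apply Finset.sum_subset hsubG
        intro y hy hy'
        have : ¬ t < G y := fun h => hy' (by rw [hsG', Finset.mem_filter]; exact ⟨hy, h⟩)
        linarith [htG y hy]
      rw [h1, Finset.sum_sub_distrib]; simp
    have hHsum : ∑ z ∈ sF' + sG', (H z - t) ≤ ∑ z ∈ sF + sG, H z - (sF + sG).card * t := by
      have h1 : ∑ z ∈ sF' + sG', (H z - t) ≤ ∑ z ∈ sF + sG, (H z - t) := by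
        apply Finset.sum_le_sum_of_subset_of_nonneg (Finset.add_subset_add hsubF hsubG)
        intro z hz _
        linarith [hHt z hz]
      have h2 : ∑ z ∈ sF + sG, (H z - t) = ∑ z ∈ sF + sG, H z - (sF + sG).card * t := by
        rw [Finset.sum_sub_distrib]; simp
      linarith
    have hmul : ((sF.card : ℝ) + sG.card - 1) * t ≤ ((sF + sG).card : ℝ) * t :=
      mul_le_mul_of_nonneg_right hCD' htpos.le
    nlinarith

/-- Discrete Prekopa-Leindler inequality on the integers: if `F`, `G` are positive on the finite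
sets `sF`, `sG`, bounded by `m`, both attain `m`, and `H (x + y) ≥ min (F x) (G y)`, then
`∑ F + ∑ G - m ≤ ∑_{sF + sG} H`. -/
theorem discrete_pl_max (F G H : ℤ → ℝ) (sF sG : Finset ℤ) (m : ℝ) (hm : 0 < m)
    (hF : ∀ x ∈ sF, 0 < F x ∧ F x ≤ m) (hG : ∀ y ∈ sG, 0 < G y ∧ G y ≤ m)
    (hFm : ∃ x ∈ sF, F x = m) (hGm : ∃ y ∈ sG, G y = m)
    (hH : ∀ x ∈ sF, ∀ y ∈ sG, min (F x) (G y) ≤ H (x + y)) :
    ∑ x ∈ sF, F x + ∑ y ∈ sG, G y - m ≤ ∑ z ∈ sF + sG, H z :=
  discrete_pl_max_aux _ F G H sF sG m rfl hm hF hG hFm hGm hH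

/-- Multiplicative form of the discrete Prekopa-Leindler inequality on the integers: if `F`, `G`
are positive on the nonempty finite sets `sF`, `sG`, `H ≥ 0` on `sF + sG`,
`F x * G y ≤ H (x + y) ^ 2` and `F x * G y ≤ 1`, then
`2 * sqrt (∑ F * ∑ G) ≤ ∑_{sF + sG} H + 1`. -/
theorem discrete_pl_sqrt (F G H : ℤ → ℝ) (sF sG : Finset ℤ) (hsF : sF.Nonempty)
    (hsG : sG.Nonempty) (hF : ∀ x ∈ sF, 0 < F x) (hG : ∀ y ∈ sG, 0 < G y)
    (hH0 : ∀ z ∈ sF + sG, 0 ≤ H z)
    (hH : ∀ x ∈ sF, ∀ y ∈ sG, F x * G y ≤ H (x + y) ^ 2)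
    (hmax : ∀ x ∈ sF, ∀ y ∈ sG, F x * G y ≤ 1) :
    2 * Real.sqrt ((∑ x ∈ sF, F x) * (∑ y ∈ sG, G y)) ≤ ∑ z ∈ sF + sG, H z + 1 := by
  obtain ⟨xm, hxm, hxmax⟩ := Finset.exists_max_image sF F hsF
  obtain ⟨ym, hym, hymax⟩ := Finset.exists_max_image sG G hsG
  set mF : ℝ := F xm with hmF
  set mG : ℝ := G ym with hmG
  have hmFpos : 0 < mF := hF xm hxm
  have hmGpos : 0 < mG := hG ym hym
  have hmm : mF * mG ≤ 1 := hmax xm hxm ym hym
  set c : ℝ := Real.sqrt (mF * mG) with hc
  have hcpos : 0 < c := Real.sqrt_pos.2 (mul_pos hmFpos hmGpos)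
  have hcsq : c ^ 2 = mF * mG := Real.sq_sqrt (mul_pos hmFpos hmGpos).le
  have hc1 : c ≤ 1 := by
    rw [hc]
    calc Real.sqrt (mF * mG) ≤ Real.sqrt 1 := Real.sqrt_le_sqrt hmm
      _ = 1 := Real.sqrt_one
  have key := discrete_pl_max (fun x => F x / mF) (fun y => G y / mG) (fun z => H z / c)
    sF sG 1 one_pos
    (fun x hx => ⟨div_pos (hF x hx) hmFpos, (div_le_one hmFpos).2 (hxmax x hx)⟩)
    (fun y hy => ⟨div_pos (hG y hy) hmGpos, (div_le_one hmGpos).2 (hymax y hy)⟩)
    ⟨xm, hxm, div_self hmFpos.ne'⟩ ⟨ym, hym, div_self hmGpos.ne'⟩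
    (fun x hx y hy => by
      have hz : x + y ∈ sF + sG := Finset.add_mem_add hx hy
      have hu : 0 < F x / mF := div_pos (hF x hx) hmFpos
      have hv : 0 < G y / mG := div_pos (hG y hy) hmGpos
      have hHn : 0 ≤ H (x + y) / c := div_nonneg (hH0 _ hz) hcpos.le
      have hprod : F x / mF * (G y / mG) ≤ (H (x + y) / c) ^ 2 := by
        rw [div_pow, hcsq, div_mul_div_comm]
        exact div_le_div_of_nonneg_right (hH x hx y hy) (mul_pos hmFpos hmGpos).le
      by_contra hcon
      have hcon := not_le.1 hcon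
      have h1 : H (x + y) / c < F x / mF := lt_of_lt_of_le hcon (min_le_left _ _)
      have h2 : H (x + y) / c < G y / mG := lt_of_lt_of_le hcon (min_le_right _ _)
      nlinarith [mul_lt_mul'' h1 h2 hHn hHn])
  simp only [← Finset.sum_div] at key
  set A : ℝ := ∑ x ∈ sF, F x with hA
  set B : ℝ := ∑ y ∈ sG, G y with hB
  set S : ℝ := ∑ z ∈ sF + sG, H z with hS
  have hApos : 0 < A := Finset.sum_pos hF hsF
  have hBpos : 0 < B := Finset.sum_pos hG hsG
  -- key : A / mF + B / mG - 1 ≤ S / c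
  have hkey2 : c * (A / mF + B / mG) - c ≤ S := by
    have := mul_le_mul_of_nonneg_left key hcpos.le
    rw [mul_div_cancel₀ _ hcpos.ne'] at this
    linarith
  have hab : 0 < A / mF + B / mG := add_pos (div_pos hApos hmFpos) (div_pos hBpos hmGpos)
  have hsq : Real.sqrt (A * B) ≤ c * (A / mF + B / mG) / 2 := by
    rw [Real.sqrt_le_left (by positivity)]
    have e1 : (c * (A / mF + B / mG) / 2) ^ 2 = mF * mG * (A / mF + B / mG) ^ 2 / 4 := by
      rw [div_pow, mul_pow, hcsq]; norm_num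
    have e2 : A * B = mF * mG * ((A / mF) * (B / mG)) := by
      field_simp
    rw [e1, e2]
    nlinarith [sq_nonneg (A / mF - B / mG), mul_pos hmFpos hmGpos]
  linarith

end Vale.Agent.Lib.P249.helper42
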