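import Vale.Agent.Lib.P249.helper42.DiscretePL

namespace Vale.Agent.Lib.P249.helper42

open Finset
open scoped Pointwise

/-- A sum over the symmetric integer interval `[-N, N]`, folded at `0`. -/
theorem sum_Icc_neg_pos (f : ℤ → ℝ) (N : ℕ) :
    ∑ z ∈ Finset.Icc (-(N : ℤ)) N, f z =
      f 0 + ∑ j ∈ Finset.range N, (f ((j : ℤ) + 1) + f (-((j : ℤ) + 1))) := by
  induction N with
  | zero => simp
  | succ N ih =>
    have hI : Finset.Icc (-((N + 1 : ℕ) : ℤ)) ((N + 1 : ℕ) : ℤ) =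
        insert ((N : ℤ) + 1) (insert (-((N : ℤ) + 1)) (Finset.Icc (-(N : ℤ)) N)) := by
      ext z
      simp only [Finset.mem_Icc, Finset.mem_insert]
      push_cast
      omega
    rw [hI, Finset.sum_insert, Finset.sum_insert, ih, Finset.sum_range_succ]
    · ring
    · simp only [Finset.mem_Icc]; omega
    · simp only [Finset.mem_insert, Finset.mem_Icc]; omega

/-- Pairing consecutive terms of a sum over `range (2 * M)`. -/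
theorem sum_range_two_mul (g : ℕ → ℝ) (M : ℕ) :
    ∑ j ∈ Finset.range (2 * M), g j = ∑ i ∈ Finset.range M, (g (2 * i) + g (2 * i + 1)) := by
  induction M with
  | zero => simp
  | succ M ih =>
    rw [show 2 * (M + 1) = 2 * M + 1 + 1 by ring, Finset.sum_range_succ, Finset.sum_range_succ,
      ih, Finset.sum_range_succ]
    ring

/-- The Gaussian sum at half the scale: `∑_{|z| ≤ 2M} exp(-z²/(4M²)) ≤ 2 ∑_{|s| ≤ M} exp(-s²/M²) + 1`. -/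
theorem gauss_double_sum_le (M : ℕ) (hM : 1 ≤ M) :
    ∑ z ∈ Finset.Icc (-(2 * (M : ℤ))) (2 * (M : ℤ)), Real.exp (-((z : ℝ) ^ 2) / (4 * (M : ℝ) ^ 2))
      ≤ 2 * ∑ s ∈ Finset.Icc (-(M : ℤ)) (M : ℤ), Real.exp (-((s : ℝ) ^ 2) / (M : ℝ) ^ 2) + 1 := by
  have hMpos : (0 : ℝ) < (M : ℝ) := by exact_mod_cast hM
  have hL := sum_Icc_neg_pos (fun z : ℤ => Real.exp (-((z : ℝ) ^ 2) / (4 * (M : ℝ) ^ 2))) (2 * M)
  have hR := sum_Icc_neg_pos (fun s : ℤ => Real.exp (-((s : ℝ) ^ 2) / (M : ℝ) ^ 2)) M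
  push_cast at hL hR
  rw [hL, hR]
  simp only [neg_zero, zero_div, Real.exp_zero, ne_eq, OfNat.ofNat_ne_zero, not_false_eq_true,
    zero_pow, neg_sq]
  rw [sum_range_two_mul]
  -- termwise comparison
  have hterm : ∀ i ∈ Finset.range M,
      (Real.exp (-(((2 * i : ℕ) : ℝ) + 1) ^ 2 / (4 * (M : ℝ) ^ 2)) +
        Real.exp (-(((2 * i : ℕ) : ℝ) + 1) ^ 2 / (4 * (M : ℝ) ^ 2))) +
      (Real.exp (-(((2 * i + 1 : ℕ) : ℝ) + 1) ^ 2 / (4 * (M : ℝ) ^ 2)) +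
        Real.exp (-(((2 * i + 1 : ℕ) : ℝ) + 1) ^ 2 / (4 * (M : ℝ) ^ 2)))
      ≤ 2 * Real.exp (-((i : ℝ) ^ 2) / (M : ℝ) ^ 2) +
        2 * Real.exp (-(((i : ℝ) + 1) ^ 2) / (M : ℝ) ^ 2) := by
    intro i _
    have h1 : Real.exp (-(((2 * i : ℕ) : ℝ) + 1) ^ 2 / (4 * (M : ℝ) ^ 2)) ≤
        Real.exp (-((i : ℝ) ^ 2) / (M : ℝ) ^ 2) := by
      apply Real.exp_le_exp.2
      rw [div_le_div_iff₀ (by positivity) (by positivity)]
      push_cast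
      have hi : (0 : ℝ) ≤ (i : ℝ) := Nat.cast_nonneg i
      nlinarith [sq_nonneg (M : ℝ), mul_nonneg hi (sq_nonneg (M : ℝ))]
    have h2 : Real.exp (-(((2 * i + 1 : ℕ) : ℝ) + 1) ^ 2 / (4 * (M : ℝ) ^ 2)) =
        Real.exp (-(((i : ℝ) + 1) ^ 2) / (M : ℝ) ^ 2) := by
      congr 1
      push_cast
      field_simp
      ring
    rw [h2]
    linarith
  have hsum := Finset.sum_le_sum hterm
  have hsplit : ∑ i ∈ Finset.range M, (2 * Real.exp (-((i : ℝ) ^ 2) / (M : ℝ) ^ 2) +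
        2 * Real.exp (-(((i : ℝ) + 1) ^ 2) / (M : ℝ) ^ 2)) =
      2 * ∑ i ∈ Finset.range M, Real.exp (-((i : ℝ) ^ 2) / (M : ℝ) ^ 2) +
        2 * ∑ i ∈ Finset.range M, Real.exp (-(((i : ℝ) + 1) ^ 2) / (M : ℝ) ^ 2) := by
    rw [Finset.sum_add_distrib, ← Finset.mul_sum, ← Finset.mul_sum]
  -- shift of the first sum
  have hshift : ∑ i ∈ Finset.range M, Real.exp (-((i : ℝ) ^ 2) / (M : ℝ) ^ 2) ≤
      ∑ i ∈ Finset.range M, Real.exp (-(((i : ℝ) + 1) ^ 2) / (M : ℝ) ^ 2) + 1 := by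
    have h1 : ∑ i ∈ Finset.range M, Real.exp (-((i : ℝ) ^ 2) / (M : ℝ) ^ 2) ≤
        ∑ i ∈ Finset.range (M + 1), Real.exp (-((i : ℝ) ^ 2) / (M : ℝ) ^ 2) := by
      rw [Finset.sum_range_succ]
      linarith [Real.exp_pos (-((M : ℝ) ^ 2) / (M : ℝ) ^ 2)]
    rw [Finset.sum_range_succ'] at h1
    simpa using h1
  have hR2 : ∑ x ∈ Finset.range M, (Real.exp (-(((x : ℝ) + 1) ^ 2) / (M : ℝ) ^ 2) +
      Real.exp (-(((x : ℝ) + 1) ^ 2) / (M : ℝ) ^ 2)) =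
      2 * ∑ i ∈ Finset.range M, Real.exp (-(((i : ℝ) + 1) ^ 2) / (M : ℝ) ^ 2) := by
    rw [Finset.mul_sum]
    exact Finset.sum_congr rfl fun x _ => by ring
  rw [hR2]
  linarith

/-- One coordinate of the discrete Gaussian concentration inequality (L4): for positive `a`, `b`
on `[-M, M]` with `b s * a s' ≤ exp ((s - s')² / (2 M²))`, the Gaussian-weighted sums satisfy
`(∑ φ b) (∑ φ a) ≤ (Z + 1)²`, where `φ s = exp (-s² / M²)` and `Z = ∑ φ`. -/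
theorem one_coord (M : ℕ) (hM : 1 ≤ M) (a b : ℤ → ℝ)
    (ha : ∀ s ∈ Finset.Icc (-(M : ℤ)) (M : ℤ), 0 < a s)
    (hb : ∀ s ∈ Finset.Icc (-(M : ℤ)) (M : ℤ), 0 < b s)
    (hab : ∀ s ∈ Finset.Icc (-(M : ℤ)) (M : ℤ), ∀ s' ∈ Finset.Icc (-(M : ℤ)) (M : ℤ),
      b s * a s' ≤ Real.exp (((s : ℝ) - (s' : ℝ)) ^ 2 / (2 * (M : ℝ) ^ 2))) :
    (∑ s ∈ Finset.Icc (-(M : ℤ)) (M : ℤ), Real.exp (-((s : ℝ) ^ 2) / (M : ℝ) ^ 2) * b s) *
      (∑ s ∈ Finset.Icc (-(M : ℤ)) (M : ℤ), Real.exp (-((s : ℝ) ^ 2) / (M : ℝ) ^ 2) * a s) ≤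
    (∑ s ∈ Finset.Icc (-(M : ℤ)) (M : ℤ), Real.exp (-((s : ℝ) ^ 2) / (M : ℝ) ^ 2) + 1) ^ 2 := by
  have hMpos : (0 : ℝ) < (M : ℝ) := by exact_mod_cast hM
  set I : Finset ℤ := Finset.Icc (-(M : ℤ)) (M : ℤ) with hI
  have hIne : I.Nonempty := ⟨0, by rw [hI, Finset.mem_Icc]; omega⟩
  have hsub : I + I ⊆ Finset.Icc (-(2 * (M : ℤ))) (2 * (M : ℤ)) := by
    intro z hz
    obtain ⟨x, hx, y, hy, rfl⟩ := Finset.mem_add.1 hz
    rw [hI, Finset.mem_Icc] at hx hy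
    rw [Finset.mem_Icc]
    omega
  have hHle1 : ∀ z : ℤ, Real.exp (-((z : ℝ) ^ 2) / (4 * (M : ℝ) ^ 2)) ≤ 1 := by
    intro z
    rw [Real.exp_le_one_iff]
    exact div_nonpos_of_nonpos_of_nonneg (neg_nonpos.2 (sq_nonneg _)) (by positivity)
  have hHprod : ∀ x ∈ I, ∀ y ∈ I,
      Real.exp (-((x : ℝ) ^ 2) / (M : ℝ) ^ 2) * b x *
        (Real.exp (-((y : ℝ) ^ 2) / (M : ℝ) ^ 2) * a y) ≤
      Real.exp (-(((x + y : ℤ) : ℝ) ^ 2) / (4 * (M : ℝ) ^ 2)) ^ 2 := by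
    intro x hx y hy
    have e1 : Real.exp (-((x : ℝ) ^ 2) / (M : ℝ) ^ 2) * Real.exp (-((y : ℝ) ^ 2) / (M : ℝ) ^ 2) *
        Real.exp (((x : ℝ) - (y : ℝ)) ^ 2 / (2 * (M : ℝ) ^ 2)) =
        Real.exp (-(((x + y : ℤ) : ℝ) ^ 2) / (4 * (M : ℝ) ^ 2)) ^ 2 := by
      rw [← Real.exp_add, ← Real.exp_add, ← Real.exp_nat_mul]
      congr 1
      push_cast
      field_simp
      ring
    calc Real.exp (-((x : ℝ) ^ 2) / (M : ℝ) ^ 2) * b x *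
          (Real.exp (-((y : ℝ) ^ 2) / (M : ℝ) ^ 2) * a y)
        = Real.exp (-((x : ℝ) ^ 2) / (M : ℝ) ^ 2) * Real.exp (-((y : ℝ) ^ 2) / (M : ℝ) ^ 2) *
            (b x * a y) := by ring
      _ ≤ Real.exp (-((x : ℝ) ^ 2) / (M : ℝ) ^ 2) * Real.exp (-((y : ℝ) ^ 2) / (M : ℝ) ^ 2) *
            Real.exp (((x : ℝ) - (y : ℝ)) ^ 2 / (2 * (M : ℝ) ^ 2)) :=
          mul_le_mul_of_nonneg_left (hab x hx y hy) (by positivity)
      _ = _ := e1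
  have key := discrete_pl_sqrt
    (fun s : ℤ => Real.exp (-((s : ℝ) ^ 2) / (M : ℝ) ^ 2) * b s)
    (fun s : ℤ => Real.exp (-((s : ℝ) ^ 2) / (M : ℝ) ^ 2) * a s)
    (fun z : ℤ => Real.exp (-((z : ℝ) ^ 2) / (4 * (M : ℝ) ^ 2))) I I hIne hIne
    (fun x hx => mul_pos (Real.exp_pos _) (hb x hx))
    (fun y hy => mul_pos (Real.exp_pos _) (ha y hy))
    (fun z _ => (Real.exp_pos _).le)
    (fun x hx y hy => hHprod x hx y hy)
    (fun x hx y hy => le_trans (hHprod x hx y hy)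
      (pow_le_one₀ (Real.exp_pos _).le (hHle1 _)))
  have h1 : ∑ z ∈ I + I, Real.exp (-((z : ℝ) ^ 2) / (4 * (M : ℝ) ^ 2)) ≤
      ∑ z ∈ Finset.Icc (-(2 * (M : ℤ))) (2 * (M : ℤ)),
        Real.exp (-((z : ℝ) ^ 2) / (4 * (M : ℝ) ^ 2)) :=
    Finset.sum_le_sum_of_subset_of_nonneg hsub fun z _ _ => (Real.exp_pos _).le
  have h2 := gauss_double_sum_le M hM
  have h3 : Real.sqrt ((∑ s ∈ I, Real.exp (-((s : ℝ) ^ 2) / (M : ℝ) ^ 2) * b s) *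
      (∑ s ∈ I, Real.exp (-((s : ℝ) ^ 2) / (M : ℝ) ^ 2) * a s)) ≤
      ∑ s ∈ I, Real.exp (-((s : ℝ) ^ 2) / (M : ℝ) ^ 2) + 1 := by
    rw [← hI] at h2
    linarith
  exact (Real.sqrt_le_iff.1 h3).2

end Vale.Agent.Lib.P249.helper42
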